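import Crest.Agent.R195.Fast

/-! # Row 195: certificates, n = 124 … 178 (generated) -/

namespace Crest.Agent.R195

def r10_0 : Rec :=
  ([16,15,13,12,11,10,9,8,7,6,5,4,3,2,2,1], [[14,12,11,10,9,8,7,6,5,4,3,2,1,1]], true,
    [[(1,15,0),(1,12,0),(1,10,0),(1,8,0),(1,6,0),(1,4,0),(0,3,1),(0,2,2),(0,1,1)]],
    [])

def r10_1 : Rec :=
  ([16,15,14,12,11,10,9,7,7,6,5,4,3,3,2,1], [[14,13,11,10,9,8,6,6,5,4,3,2,2,1]], true,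
    [[(1,15,0),(2,12,3),(1,10,0),(0,9,1),(3,7,0),(1,5,0),(0,4,1),(3,3,0),(1,1,7)]],
    [])

def r10_2 : Rec :=
  ([16,15,14,12,11,10,9,8,7,6,5,4,3,3,2,1], [[14,13,11,10,9,8,7,6,5,4,3,2,2,1]], true,
    [[(1,15,0),(2,12,3),(1,10,0),(1,8,0),(1,6,0),(1,4,0),(3,3,0),(1,1,0)]],
    [])

def r10_3 : Rec :=
  ([16,15,14,13,11,10,9,7,7,6,5,4,4,3,2,1], [[14,13,12,10,9,8,6,6,5,4,3,3,2,1]], true,
    [[(1,15,0),(1,13,0),(1,10,0),(0,9,1),(3,7,0),(1,5,0),(0,4,2),(0,3,1),(1,1,7)]],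
    [])

def r10_4 : Rec :=
  ([16,15,14,13,11,10,9,8,7,6,5,4,4,3,2,1], [[14,13,12,10,9,8,7,6,5,4,3,3,2,1]], true,
    [[(1,15,0),(1,13,0),(1,10,0),(1,8,0),(1,6,0),(0,5,1),(0,4,2),(1,2,0),(0,1,1)]],
    [])

def r10_5 : Rec :=
  ([17,15,14,13,11,10,9,7,7,6,5,4,4,3,2,1,1], [[14,13,12,10,9,8,6,6,5,4,3,3,2,1]], true,
    [[(2,15,1),(1,13,0),(1,10,0),(0,9,1),(3,7,0),(1,5,0),(0,4,2),(1,2,7),(3,1,0)]],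
    [])

def r10_6 : Rec :=
  ([17,15,14,13,11,10,9,8,7,6,5,4,4,3,2,1,1], [[14,13,12,10,9,8,7,6,5,4,3,3,2,1]], true,
    [[(2,15,1),(1,13,0),(1,10,0),(1,8,0),(1,6,0),(0,5,1),(0,4,2),(1,2,0),(3,1,0)]],
    [])

def r10_7 : Rec :=
  ([16,15,14,13,12,11,9,7,7,6,6,5,4,3,2,1], [[14,13,12,11,10,8,6,6,5,5,4,3,2,1]], true,
    [[(1,15,0),(1,13,0),(1,11,0),(0,9,1),(3,7,0),(0,6,2),(0,5,1),(1,3,0),(1,1,7)]],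
    [])

def r10_8 : Rec :=
  ([17,16,14,13,11,10,9,8,7,6,5,4,4,3,2,2,1], [[15,13,12,10,9,8,7,6,5,4,3,3,2,1,1]], true,
    [[(1,16,0),(1,13,0),(1,10,0),(1,8,0),(1,6,0),(0,5,1),(0,4,2),(0,3,1),(0,2,2),(0,1,1)]],
    [])

def r10_9 : Rec :=
  ([17,15,14,13,12,11,9,7,7,6,6,5,4,3,2,1,1], [[14,13,12,11,10,8,6,6,5,5,4,3,2,1]], true,
    [[(2,15,1),(1,13,0),(1,11,0),(0,9,1),(3,7,0),(0,6,2),(1,4,0),(1,2,7),(3,1,0)]],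
    [])

def r10_10 : Rec :=
  ([17,16,15,13,11,10,9,8,7,6,5,4,4,3,3,2,1], [[15,14,12,10,9,8,7,6,5,4,3,3,2,2,1]], true,
    [[(1,16,0),(2,13,3),(1,10,0),(1,8,0),(1,6,0),(0,5,1),(3,4,0),(3,3,0),(1,1,4)]],
    [])

def r10_11 : Rec :=
  ([17,16,14,13,12,11,9,7,7,6,6,5,4,3,2,2,1], [[15,13,12,11,10,8,6,6,5,5,4,3,2,1,1]], true,
    [[(1,16,0),(1,13,0),(1,11,0),(0,9,1),(3,7,0),(0,6,2),(0,5,1),(1,3,7),(0,2,2),(0,1,1)]],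
    [])

def r10_12 : Rec :=
  ([16,15,14,13,12,11,10,9,8,7,6,5,4,3,2,1], [[14,13,12,11,10,9,8,7,6,5,4,3,2,1]], true,
    [[(1,15,0),(1,13,0),(1,11,0),(1,9,0),(1,7,0),(1,5,0),(1,3,0),(1,1,0)]],
    [])

def r10_13 : Rec :=
  ([16,15,14,13,12,11,10,9,9,7,6,5,4,3,2,1], [[14,13,12,11,10,9,8,8,6,5,4,3,2,1]], true,
    [[(1,15,0),(1,13,0),(1,11,0),(0,10,1),(3,9,0),(1,6,0),(1,4,0),(1,2,9),(0,1,1)]],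
    [])

def r10_14 : Rec :=
  ([17,15,14,13,12,11,10,9,8,7,6,5,4,3,2,1,1], [[14,13,12,11,10,9,8,7,6,5,4,3,2,1]], true,
    [[(2,15,1),(1,13,0),(1,11,0),(1,9,0),(1,7,0),(1,5,0),(1,3,0),(0,2,1),(3,1,0)]],
    [])

def r10_15 : Rec :=
  ([17,15,14,13,12,11,10,9,9,7,6,5,4,3,2,1,1], [[14,13,12,11,10,9,8,8,6,5,4,3,2,1]], true,
    [[(2,15,1),(1,13,0),(1,11,0),(0,10,1),(3,9,0),(1,6,0),(1,4,0),(1,2,9),(3,1,0)],[(0,17,1),(1,14,0),(1,12,0),(1,10,0),(0,9,2),(1,6,0),(1,4,0),(1,2,0),(0,1,2)]],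
    [])

def r10_16 : Rec :=
  ([17,16,14,13,12,11,10,9,8,7,6,5,4,3,2,2,1], [[15,13,12,11,10,9,8,7,6,5,4,3,2,1,1]], true,
    [[(1,16,0),(1,13,0),(1,11,0),(1,9,0),(1,7,0),(1,5,0),(1,3,0),(0,2,2),(0,1,1)]],
    [])

def r10_17 : Rec :=
  ([17,16,14,13,12,11,10,9,9,7,6,5,4,3,2,2,1], [[15,13,12,11,10,9,8,8,6,5,4,3,2,1,1]], true,
    [[(1,16,0),(1,13,0),(1,11,0),(0,10,1),(3,9,0),(1,6,0),(1,4,9),(0,3,1),(0,2,2),(0,1,1)]],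
    [])

def r10_18 : Rec :=
  ([17,16,15,13,12,11,10,9,8,7,6,5,4,3,3,2,1], [[15,14,12,11,10,9,8,7,6,5,4,3,2,2,1]], true,
    [[(1,16,0),(2,13,3),(1,11,0),(1,9,0),(1,7,0),(1,5,0),(0,4,1),(3,3,0),(1,1,0)]],
    [])

def r10_19 : Rec :=
  ([17,16,15,13,12,11,10,9,9,7,6,5,4,3,3,2,1], [[15,14,12,11,10,9,8,8,6,5,4,3,2,2,1]], true,
    [[(1,16,0),(2,13,3),(1,11,0),(0,10,1),(3,9,0),(1,6,0),(1,4,0),(3,3,0),(1,1,9)]],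
    [])

def r10_20 : Rec :=
  ([17,16,15,14,12,11,10,9,8,7,6,5,4,4,3,2,1], [[15,14,13,11,10,9,8,7,6,5,4,3,3,2,1]], true,
    [[(1,16,0),(1,14,0),(1,11,0),(1,9,0),(1,7,0),(1,5,0),(0,4,2),(1,2,0),(0,1,1)]],
    [])

def r10_21 : Rec :=
  ([17,16,15,14,12,11,10,9,9,7,6,5,4,4,3,2,1], [[15,14,13,11,10,9,8,8,6,5,4,3,3,2,1]], true,
    [[(1,16,0),(1,14,0),(1,11,0),(0,10,1),(3,9,0),(1,6,0),(0,5,1),(0,4,2),(0,3,1),(1,1,9)]],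
    [])

def r10_22 : Rec :=
  ([17,16,15,14,13,11,10,9,8,7,6,5,5,4,3,2,1], [[15,14,13,12,10,9,8,7,6,5,4,4,3,2,1]], true,
    [[(1,16,0),(1,14,0),(0,13,1),(1,10,0),(1,8,0),(1,6,0),(3,5,0),(1,3,0),(1,1,5)]],
    [])

def r10_23 : Rec :=
  ([17,16,15,14,13,11,10,9,9,7,6,5,5,4,3,2,1], [[15,14,13,12,10,9,8,8,6,5,4,4,3,2,1]], true,
    [[(1,16,0),(1,14,0),(0,13,1),(1,10,0),(3,9,0),(1,6,0),(0,5,2),(1,3,0),(1,1,9)]],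
    [])

def r10_24 : Rec :=
  ([18,16,15,14,13,11,10,9,8,7,6,5,5,4,3,2,1,1], [[15,14,13,12,10,9,8,7,6,5,4,4,3,2,1]], true,
    [[(2,16,1),(1,14,0),(0,13,1),(1,10,0),(1,8,0),(1,6,0),(0,5,2),(1,3,0),(0,2,1),(3,1,0)]],
    [])

def r10_25 : Rec :=
  ([18,16,15,14,13,11,10,9,9,7,6,5,5,4,3,2,1,1], [[15,14,13,12,10,9,8,8,6,5,4,4,3,2,1]], true,
    [[(2,16,1),(1,14,0),(0,13,1),(1,10,0),(3,9,0),(1,6,0),(0,5,2),(0,4,1),(1,2,9),(3,1,0)]],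
    [])

def r10_26 : Rec :=
  ([18,17,15,14,13,11,10,9,8,7,6,5,5,4,3,2,2,1], [[16,14,13,12,10,9,8,7,6,5,4,4,3,2,1,1]], true,
    [[(1,17,0),(1,14,0),(0,13,1),(1,10,0),(1,8,0),(1,6,0),(0,5,2),(1,3,0),(0,2,2),(0,1,1)]],
    [])

def r10_27 : Rec :=
  ([18,17,15,14,13,11,10,9,9,7,6,5,5,4,3,2,2,1], [[16,14,13,12,10,9,8,8,6,5,4,4,3,2,1,1]], true,
    [[(1,17,0),(1,14,0),(0,13,1),(1,10,0),(3,9,0),(1,6,0),(0,5,2),(1,3,9),(0,2,2),(0,1,1)]],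
    [])

def r10_28 : Rec :=
  ([17,16,15,14,13,12,11,10,8,8,7,6,5,4,3,2,1], [[15,14,13,12,11,10,9,7,7,6,5,4,3,2,1]], true,
    [[(1,16,0),(1,14,0),(1,12,0),(1,10,0),(3,8,0),(1,6,0),(1,4,0),(1,2,8),(0,1,1)]],
    [])

def r10_29 : Rec :=
  ([17,16,15,14,13,12,11,10,9,8,7,6,5,4,3,2,1], [[15,14,13,12,11,10,9,8,7,6,5,4,3,2,1]], true,
    [[(1,16,0),(1,14,0),(1,12,0),(1,10,0),(1,8,0),(1,6,0),(1,4,0),(1,2,0),(0,1,1)]],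
    [])

def r10_30 : Rec :=
  ([18,16,15,14,13,12,11,10,8,8,7,6,5,4,3,2,1,1], [[15,14,13,12,11,10,9,7,7,6,5,4,3,2,1]], true,
    [[(2,16,1),(1,14,0),(1,12,0),(1,10,0),(3,8,0),(1,6,0),(1,4,0),(1,2,8),(3,1,0)],[(2,16,1),(1,14,0),(1,12,0),(1,10,0),(0,8,2),(1,6,0),(1,4,0),(1,2,0),(3,1,0)]],
    [])

def r10_31 : Rec :=
  ([18,16,15,14,13,12,11,10,9,8,7,6,5,4,3,2,1,1], [[15,14,13,12,11,10,9,8,7,6,5,4,3,2,1]], true,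
    [[(2,16,1),(1,14,0),(1,12,0),(1,10,0),(1,8,0),(1,6,0),(1,4,0),(1,2,0),(3,1,0)]],
    [])

def r10_32 : Rec :=
  ([18,17,15,14,13,12,11,10,8,8,7,6,5,4,3,2,2,1], [[16,14,13,12,11,10,9,7,7,6,5,4,3,2,1,1]], true,
    [[(1,17,0),(1,14,0),(1,12,0),(1,10,0),(3,8,0),(1,6,0),(1,4,8),(0,3,1),(0,2,2),(0,1,1)]],
    [])

def r10_33 : Rec :=
  ([18,17,15,14,13,12,11,10,9,8,7,6,5,4,3,2,2,1], [[16,14,13,12,11,10,9,8,7,6,5,4,3,2,1,1]], true,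
    [[(1,17,0),(1,14,0),(1,12,0),(1,10,0),(1,8,0),(1,6,0),(1,4,0),(0,3,1),(0,2,2),(0,1,1)]],
    [])

def r10_34 : Rec :=
  ([18,17,16,14,13,12,11,10,8,8,7,6,5,4,3,3,2,1], [[16,15,13,12,11,10,9,7,7,6,5,4,3,2,2,1]], true,
    [[(1,17,0),(2,14,3),(1,12,0),(1,10,0),(3,8,0),(1,6,0),(1,4,0),(3,3,0),(1,1,8)]],
    [])

def r10_35 : Rec :=
  ([18,17,16,14,13,12,11,10,9,8,7,6,5,4,3,3,2,1], [[16,15,13,12,11,10,9,8,7,6,5,4,3,2,2,1]], true,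
    [[(1,17,0),(2,14,3),(1,12,0),(1,10,0),(1,8,0),(1,6,0),(1,4,0),(3,3,0),(1,1,0)]],
    [])

def r10_36 : Rec :=
  ([18,17,16,15,13,12,11,10,8,8,7,6,5,4,4,3,2,1], [[16,15,14,12,11,10,9,7,7,6,5,4,3,3,2,1]], true,
    [[(1,17,0),(1,15,0),(1,12,0),(1,10,0),(3,8,0),(1,6,0),(0,5,1),(0,4,2),(0,3,1),(1,1,8)]],
    [])

def r10_37 : Rec :=
  ([18,17,16,15,13,12,11,10,9,8,7,6,5,4,4,3,2,1], [[16,15,14,12,11,10,9,8,7,6,5,4,3,3,2,1]], true,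
    [[(1,17,0),(1,15,0),(1,12,0),(1,10,0),(1,8,0),(1,6,0),(0,5,1),(0,4,2),(1,2,0),(0,1,1)]],
    [])

def r10_38 : Rec :=
  ([18,17,16,15,14,12,11,10,8,8,7,6,5,5,4,3,2,1], [[16,15,14,13,11,10,9,7,7,6,5,4,4,3,2,1]], true,
    [[(1,17,0),(1,15,0),(2,12,5),(1,10,0),(3,8,0),(1,6,0),(3,5,0),(1,3,0),(1,1,8)]],
    [])

def r10_39 : Rec :=
  ([18,17,16,15,14,12,11,10,9,8,7,6,5,5,4,3,2,1], [[16,15,14,13,11,10,9,8,7,6,5,4,4,3,2,1]], true,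
    [[(1,17,0),(1,15,0),(2,12,5),(1,10,0),(1,8,0),(1,6,0),(3,5,0),(1,3,0),(1,1,0)]],
    [])

def r10_40 : Rec :=
  ([19,17,16,15,14,12,11,10,8,8,7,6,5,5,4,3,2,1,1], [[16,15,14,13,11,10,9,7,7,6,5,4,4,3,2,1]], true,
    [[(2,17,1),(1,15,0),(2,12,5),(1,10,0),(3,8,0),(1,6,0),(3,5,0),(0,4,1),(1,2,8),(3,1,0)]],
    [])

def r10_41 : Rec :=
  ([19,17,16,15,14,12,11,10,9,8,7,6,5,5,4,3,2,1,1], [[16,15,14,13,11,10,9,8,7,6,5,4,4,3,2,1]], true,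
    [[(2,17,1),(1,15,0),(2,12,5),(1,10,0),(1,8,0),(1,6,0),(3,5,0),(1,3,0),(0,2,1),(3,1,0)]],
    [])

def r10_42 : Rec :=
  ([19,18,16,15,14,12,11,10,8,8,7,6,5,5,4,3,2,2,1], [[17,15,14,13,11,10,9,7,7,6,5,4,4,3,2,1,1]], true,
    [[(1,18,0),(1,15,0),(2,12,5),(1,10,0),(3,8,0),(1,6,0),(3,5,0),(1,3,8),(0,2,2),(0,1,1)]],
    [])

def r10_43 : Rec :=
  ([19,18,16,15,14,12,11,10,9,8,7,6,5,5,4,3,2,2,1], [[17,15,14,13,11,10,9,8,7,6,5,4,4,3,2,1,1]], true,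
    [[(1,18,0),(1,15,0),(2,12,5),(1,10,0),(1,8,0),(1,6,0),(3,5,0),(1,3,0),(0,2,2),(0,1,1)]],
    [])

def r10_44 : Rec :=
  ([20,18,16,15,14,12,11,10,8,8,7,6,5,5,4,3,2,2,1,1], [[17,15,14,13,11,10,9,7,7,6,5,4,4,3,2,1,1]], true,
    [[(2,18,1),(1,15,0),(2,12,5),(1,10,0),(3,8,0),(1,6,0),(3,5,0),(1,3,8),(0,2,2),(3,1,0)],[(2,18,1),(1,15,0),(2,12,5),(1,10,0),(0,8,2),(1,6,0),(3,5,0),(1,3,0),(0,2,2),(3,1,0)]],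
    [])

def r10_45 : Rec :=
  ([20,18,16,15,14,12,11,10,9,8,7,6,5,5,4,3,2,2,1,1], [[17,15,14,13,11,10,9,8,7,6,5,4,4,3,2,1,1]], true,
    [[(2,18,1),(1,15,0),(2,12,5),(1,10,0),(1,8,0),(1,6,0),(3,5,0),(1,3,0),(0,2,2),(3,1,0)]],
    [])

def r10_46 : Rec :=
  ([19,18,16,15,14,13,12,10,8,8,7,7,6,5,4,3,2,2,1], [[17,15,14,13,12,11,9,7,7,6,6,5,4,3,2,1,1]], true,
    [[(1,18,0),(1,15,0),(1,13,0),(0,12,1),(0,10,1),(3,8,0),(3,7,0),(1,5,7),(1,3,8),(0,2,2),(0,1,1)]],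
    [])

def r10_47 : Rec :=
  ([18,17,16,15,14,13,12,11,10,9,8,7,6,5,4,3,2,1], [[16,15,14,13,12,11,10,9,8,7,6,5,4,3,2,1]], true,
    [[(1,17,0),(1,15,0),(1,13,0),(1,11,0),(1,9,0),(1,7,0),(1,5,0),(1,3,0),(1,1,0)]],
    [])

def r10_48 : Rec :=
  ([18,17,16,15,14,13,12,11,10,10,8,7,6,5,4,3,2,1], [[16,15,14,13,12,11,10,9,9,7,6,5,4,3,2,1]], true,
    [[(1,17,0),(1,15,0),(1,13,0),(1,11,0),(3,10,0),(1,7,0),(1,5,0),(1,3,0),(1,1,10)]],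
    [])

def r10_49 : Rec :=
  ([19,17,16,15,14,13,12,11,10,9,8,7,6,5,4,3,2,1,1], [[16,15,14,13,12,11,10,9,8,7,6,5,4,3,2,1]], true,
    [[(2,17,1),(1,15,0),(1,13,0),(1,11,0),(1,9,0),(1,7,0),(1,5,0),(1,3,0),(0,2,1),(3,1,0)]],
    [])

def r10_50 : Rec :=
  ([19,17,16,15,14,13,12,11,10,10,8,7,6,5,4,3,2,1,1], [[16,15,14,13,12,11,10,9,9,7,6,5,4,3,2,1]], true,
    [[(2,17,1),(1,15,0),(1,13,0),(1,11,0),(3,10,0),(1,7,0),(1,5,0),(1,3,10),(0,2,1),(3,1,0)]],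
    [])

def r10_51 : Rec :=
  ([19,18,16,15,14,13,12,11,10,9,8,7,6,5,4,3,2,2,1], [[17,15,14,13,12,11,10,9,8,7,6,5,4,3,2,1,1]], true,
    [[(1,18,0),(1,15,0),(1,13,0),(1,11,0),(1,9,0),(1,7,0),(1,5,0),(1,3,0),(0,2,2),(0,1,1)]],
    [])

def r10_52 : Rec :=
  ([19,18,16,15,14,13,12,11,10,10,8,7,6,5,4,3,2,2,1], [[17,15,14,13,12,11,10,9,9,7,6,5,4,3,2,1,1]], true,
    [[(1,18,0),(1,15,0),(1,13,0),(1,11,0),(3,10,0),(1,7,0),(1,5,0),(1,3,10),(0,2,2),(0,1,1)],[(1,18,0),(1,15,0),(1,13,0),(1,11,0),(0,10,2),(1,7,0),(1,5,0),(1,3,0),(0,2,2),(0,1,1)]],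
    [])

def r10_53 : Rec :=
  ([19,18,17,15,14,13,12,11,10,9,8,7,6,5,4,3,3,2,1], [[17,16,14,13,12,11,10,9,8,7,6,5,4,3,2,2,1]], true,
    [[(1,18,0),(2,15,3),(1,13,0),(1,11,0),(1,9,0),(1,7,0),(1,5,0),(0,4,1),(3,3,0),(1,1,0)]],
    [])

def r10_54 : Rec :=
  ([19,18,17,15,14,13,12,11,10,10,8,7,6,5,4,3,3,2,1], [[17,16,14,13,12,11,10,9,9,7,6,5,4,3,2,2,1]], true,
    [[(1,18,0),(2,15,3),(1,13,0),(1,11,0),(3,10,0),(1,7,0),(1,5,0),(0,4,1),(3,3,0),(1,1,10)]],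
    [])

def data10 : List Rec :=
  [r10_0, r10_1, r10_2, r10_3, r10_4, r10_5, r10_6, r10_7, r10_8, r10_9, r10_10, r10_11, r10_12, r10_13, r10_14, r10_15, r10_16, r10_17, r10_18, r10_19, r10_20, r10_21, r10_22, r10_23, r10_24, r10_25, r10_26, r10_27, r10_28, r10_29, r10_30, r10_31, r10_32, r10_33, r10_34, r10_35, r10_36, r10_37, r10_38, r10_39, r10_40, r10_41, r10_42, r10_43, r10_44, r10_45, r10_46, r10_47, r10_48, r10_49, r10_50, r10_51, r10_52, r10_53, r10_54]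

theorem data10_ok : data10.all recF = true := by decide +kernel

end Crest.Agent.R195
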