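import Crest.Agent.R195.Fast

/-! # Row 195: certificates, n = 179 … 209 (generated) -/

namespace Crest.Agent.R195

def r11_0 : Rec :=
  ([19,18,17,16,14,13,12,11,10,9,8,7,6,5,4,4,3,2,1], [[17,16,15,13,12,11,10,9,8,7,6,5,4,3,3,2,1]], true,
    [[(1,18,0),(1,16,0),(1,13,0),(1,11,0),(1,9,0),(1,7,0),(1,5,0),(0,4,2),(1,2,0),(0,1,1)]],
    [])

def r11_1 : Rec :=
  ([19,18,17,16,14,13,12,11,10,10,8,7,6,5,4,4,3,2,1], [[17,16,15,13,12,11,10,9,9,7,6,5,4,3,3,2,1]], true,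
    [[(1,18,0),(1,16,0),(1,13,0),(1,11,0),(3,10,0),(1,7,0),(1,5,0),(0,4,2),(0,3,1),(1,1,10)],[(1,18,0),(1,16,0),(1,13,0),(1,11,0),(0,10,2),(1,7,0),(1,5,0),(0,4,2),(1,2,0),(0,1,1)]],
    [])

def r11_2 : Rec :=
  ([19,18,17,16,15,13,12,11,10,9,8,7,6,5,5,4,3,2,1], [[17,16,15,14,12,11,10,9,8,7,6,5,4,4,3,2,1]], true,
    [[(1,18,0),(1,16,0),(2,13,5),(1,11,0),(1,9,0),(1,7,0),(0,6,1),(3,5,0),(1,3,0),(1,1,0)]],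
    [])

def r11_3 : Rec :=
  ([19,18,17,16,15,13,12,11,10,10,8,7,6,5,5,4,3,2,1], [[17,16,15,14,12,11,10,9,9,7,6,5,4,4,3,2,1]], true,
    [[(1,18,0),(1,16,0),(2,13,5),(1,11,0),(3,10,0),(1,7,0),(0,6,1),(3,5,0),(1,3,0),(1,1,10)]],
    [])

def r11_4 : Rec :=
  ([19,18,17,16,15,14,12,11,10,9,8,7,6,6,5,4,3,2,1], [[17,16,15,14,13,11,10,9,8,7,6,5,5,4,3,2,1]], true,
    [[(1,18,0),(1,16,0),(1,14,0),(1,11,0),(1,9,0),(1,7,0),(0,6,2),(1,4,0),(1,2,0),(0,1,1)]],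
    [])

def r11_5 : Rec :=
  ([19,18,17,16,15,14,12,11,10,10,8,7,6,6,5,4,3,2,1], [[17,16,15,14,13,11,10,9,9,7,6,5,5,4,3,2,1]], true,
    [[(1,18,0),(1,16,0),(1,14,0),(1,11,0),(3,10,0),(1,7,0),(0,6,2),(0,5,1),(1,3,0),(1,1,10)],[(1,18,0),(1,16,0),(1,14,0),(1,11,0),(0,10,2),(1,7,0),(0,6,2),(1,4,0),(1,2,0),(0,1,1)]],
    [])

def r11_6 : Rec :=
  ([20,18,17,16,15,14,12,11,10,9,8,7,6,6,5,4,3,2,1,1], [[17,16,15,14,13,11,10,9,8,7,6,5,5,4,3,2,1]], true,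
    [[(2,18,1),(1,16,0),(1,14,0),(1,11,0),(1,9,0),(1,7,0),(0,6,2),(1,4,0),(1,2,0),(3,1,0)]],
    [])

def r11_7 : Rec :=
  ([20,18,17,16,15,14,12,11,10,10,8,7,6,6,5,4,3,2,1,1], [[17,16,15,14,13,11,10,9,9,7,6,5,5,4,3,2,1]], true,
    [[(2,18,1),(1,16,0),(1,14,0),(1,11,0),(3,10,0),(1,7,0),(0,6,2),(1,4,0),(1,2,10),(3,1,0)]],
    [])

def r11_8 : Rec :=
  ([20,19,17,16,15,14,12,11,10,9,8,7,6,6,5,4,3,2,2,1], [[18,16,15,14,13,11,10,9,8,7,6,5,5,4,3,2,1,1]], true,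
    [[(1,19,0),(1,16,0),(1,14,0),(1,11,0),(1,9,0),(1,7,0),(0,6,2),(1,4,0),(0,3,1),(0,2,2),(0,1,1)]],
    [])

def r11_9 : Rec :=
  ([20,19,17,16,15,14,12,11,10,10,8,7,6,6,5,4,3,2,2,1], [[18,16,15,14,13,11,10,9,9,7,6,5,5,4,3,2,1,1]], true,
    [[(1,19,0),(1,16,0),(1,14,0),(1,11,0),(3,10,0),(1,7,0),(0,6,2),(0,5,1),(1,3,10),(0,2,2),(0,1,1)]],
    [])

def r11_10 : Rec :=
  ([19,18,17,16,15,14,13,12,11,9,9,8,7,6,5,4,3,2,1], [[17,16,15,14,13,12,11,10,8,8,7,6,5,4,3,2,1]], true,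
    [[(1,18,0),(1,16,0),(1,14,0),(1,12,0),(0,11,1),(3,9,0),(1,7,0),(1,5,0),(1,3,0),(1,1,9)]],
    [])

def r11_11 : Rec :=
  ([20,19,18,16,15,14,12,11,10,9,8,7,6,6,5,4,3,3,2,1], [[18,17,15,14,13,11,10,9,8,7,6,5,5,4,3,2,2,1]], true,
    [[(1,19,0),(2,16,3),(1,14,0),(1,11,0),(1,9,0),(1,7,0),(3,6,0),(1,4,0),(3,3,0),(1,1,6)]],
    [])

def r11_12 : Rec :=
  ([19,18,17,16,15,14,13,12,11,10,9,8,7,6,5,4,3,2,1], [[17,16,15,14,13,12,11,10,9,8,7,6,5,4,3,2,1]], true,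
    [[(1,18,0),(1,16,0),(1,14,0),(1,12,0),(1,10,0),(1,8,0),(1,6,0),(1,4,0),(1,2,0),(0,1,1)]],
    [])

def r11_13 : Rec :=
  ([20,19,18,16,15,14,12,11,10,10,8,7,6,6,5,4,3,3,2,1], [[18,17,15,14,13,11,10,9,9,7,6,5,5,4,3,2,2,1]], true,
    [[(1,19,0),(2,16,3),(1,14,0),(1,11,0),(3,10,0),(1,7,0),(0,6,2),(1,4,0),(3,3,0),(1,1,10)]],
    [])

def r11_14 : Rec :=
  ([20,18,17,16,15,14,13,12,11,9,9,8,7,6,5,4,3,2,1,1], [[17,16,15,14,13,12,11,10,8,8,7,6,5,4,3,2,1]], true,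
    [[(2,18,1),(1,16,0),(1,14,0),(1,12,0),(0,11,1),(3,9,0),(1,7,0),(1,5,0),(1,3,9),(0,2,1),(3,1,0)],[(0,20,1),(1,17,0),(1,15,0),(1,13,0),(1,11,0),(0,9,2),(1,7,0),(1,5,0),(1,3,0),(0,2,1),(0,1,2)]],
    [])

def r11_15 : Rec :=
  ([20,18,17,16,15,14,13,12,11,10,9,8,7,6,5,4,3,2,1,1], [[17,16,15,14,13,12,11,10,9,8,7,6,5,4,3,2,1]], true,
    [[(2,18,1),(1,16,0),(1,14,0),(1,12,0),(1,10,0),(1,8,0),(1,6,0),(1,4,0),(1,2,0),(3,1,0)]],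
    [])

def r11_16 : Rec :=
  ([20,19,17,16,15,14,13,12,11,9,9,8,7,6,5,4,3,2,2,1], [[18,16,15,14,13,12,11,10,8,8,7,6,5,4,3,2,1,1]], true,
    [[(1,19,0),(1,16,0),(1,14,0),(1,12,0),(0,11,1),(3,9,0),(1,7,0),(1,5,0),(1,3,9),(0,2,2),(0,1,1)]],
    [])

def r11_17 : Rec :=
  ([20,19,17,16,15,14,13,12,11,10,9,8,7,6,5,4,3,2,2,1], [[18,16,15,14,13,12,11,10,9,8,7,6,5,4,3,2,1,1]], true,
    [[(1,19,0),(1,16,0),(1,14,0),(1,12,0),(1,10,0),(1,8,0),(1,6,0),(1,4,0),(0,3,1),(0,2,2),(0,1,1)]],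
    [])

def r11_18 : Rec :=
  ([20,19,18,16,15,14,13,12,11,9,9,8,7,6,5,4,3,3,2,1], [[18,17,15,14,13,12,11,10,8,8,7,6,5,4,3,2,2,1]], true,
    [[(1,19,0),(2,16,3),(1,14,0),(1,12,0),(0,11,1),(3,9,0),(1,7,0),(1,5,0),(0,4,1),(3,3,0),(1,1,9)]],
    [])

def r11_19 : Rec :=
  ([20,19,18,16,15,14,13,12,11,10,9,8,7,6,5,4,3,3,2,1], [[18,17,15,14,13,12,11,10,9,8,7,6,5,4,3,2,2,1]], true,
    [[(1,19,0),(2,16,3),(1,14,0),(1,12,0),(1,10,0),(1,8,0),(1,6,0),(1,4,0),(3,3,0),(1,1,0)]],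
    [])

def r11_20 : Rec :=
  ([20,19,18,17,15,14,13,12,11,9,9,8,7,6,5,4,4,3,2,1], [[18,17,16,14,13,12,11,10,8,8,7,6,5,4,3,3,2,1]], true,
    [[(1,19,0),(1,17,0),(1,14,0),(1,12,0),(0,11,1),(3,9,0),(1,7,0),(1,5,0),(0,4,2),(0,3,1),(1,1,9)]],
    [])

def r11_21 : Rec :=
  ([20,19,18,17,15,14,13,12,11,10,9,8,7,6,5,4,4,3,2,1], [[18,17,16,14,13,12,11,10,9,8,7,6,5,4,3,3,2,1]], true,
    [[(1,19,0),(1,17,0),(1,14,0),(1,12,0),(1,10,0),(1,8,0),(1,6,0),(0,5,1),(0,4,2),(1,2,0),(0,1,1)]],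
    [])

def r11_22 : Rec :=
  ([20,19,18,17,16,14,13,12,11,9,9,8,7,6,5,5,4,3,2,1], [[18,17,16,15,13,12,11,10,8,8,7,6,5,4,4,3,2,1]], true,
    [[(1,19,0),(1,17,0),(2,14,5),(1,12,0),(0,11,1),(3,9,0),(1,7,0),(0,6,1),(3,5,0),(1,3,0),(1,1,9)]],
    [])

def r11_23 : Rec :=
  ([20,19,18,17,16,14,13,12,11,10,9,8,7,6,5,5,4,3,2,1], [[18,17,16,15,13,12,11,10,9,8,7,6,5,4,4,3,2,1]], true,
    [[(1,19,0),(1,17,0),(2,14,5),(1,12,0),(1,10,0),(1,8,0),(1,6,0),(3,5,0),(1,3,0),(1,1,0)]],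
    [])

def r11_24 : Rec :=
  ([20,19,18,17,16,15,13,12,11,9,9,8,7,6,6,5,4,3,2,1], [[18,17,16,15,14,12,11,10,8,8,7,6,5,5,4,3,2,1]], true,
    [[(1,19,0),(1,17,0),(1,15,0),(1,12,0),(0,11,1),(3,9,0),(1,7,0),(0,6,2),(0,5,1),(1,3,0),(1,1,9)],[(1,19,0),(1,17,0),(1,15,0),(1,12,0),(0,11,1),(0,9,2),(1,7,0),(0,6,2),(1,4,0),(1,2,0),(0,1,1)]],
    [])

def r11_25 : Rec :=
  ([20,19,18,17,16,15,13,12,11,10,9,8,7,6,6,5,4,3,2,1], [[18,17,16,15,14,12,11,10,9,8,7,6,5,5,4,3,2,1]], true,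
    [[(1,19,0),(1,17,0),(1,15,0),(1,12,0),(1,10,0),(1,8,0),(0,7,1),(0,6,2),(1,4,0),(1,2,0),(0,1,1)]],
    [])

def r11_26 : Rec :=
  ([21,19,18,17,16,15,13,12,11,9,9,8,7,6,6,5,4,3,2,1,1], [[18,17,16,15,14,12,11,10,8,8,7,6,5,5,4,3,2,1]], true,
    [[(2,19,1),(1,17,0),(1,15,0),(1,12,0),(0,11,1),(3,9,0),(1,7,0),(0,6,2),(1,4,0),(1,2,9),(3,1,0)]],
    [])

def r11_27 : Rec :=
  ([21,19,18,17,16,15,13,12,11,10,9,8,7,6,6,5,4,3,2,1,1], [[18,17,16,15,14,12,11,10,9,8,7,6,5,5,4,3,2,1]], true,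
    [[(2,19,1),(1,17,0),(1,15,0),(1,12,0),(1,10,0),(1,8,0),(0,7,1),(0,6,2),(1,4,0),(1,2,0),(3,1,0)]],
    [])

def r11_28 : Rec :=
  ([21,20,18,17,16,15,13,12,11,9,9,8,7,6,6,5,4,3,2,2,1], [[19,17,16,15,14,12,11,10,8,8,7,6,5,5,4,3,2,1,1]], true,
    [[(1,20,0),(1,17,0),(1,15,0),(1,12,0),(0,11,1),(3,9,0),(1,7,0),(0,6,2),(0,5,1),(1,3,9),(0,2,2),(0,1,1)]],
    [])

def r11_29 : Rec :=
  ([21,20,18,17,16,15,13,12,11,10,9,8,7,6,6,5,4,3,2,2,1], [[19,17,16,15,14,12,11,10,9,8,7,6,5,5,4,3,2,1,1]], true,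
    [[(1,20,0),(1,17,0),(1,15,0),(1,12,0),(1,10,0),(1,8,0),(0,7,1),(0,6,2),(1,4,0),(0,3,1),(0,2,2),(0,1,1)]],
    [])

def r11_30 : Rec :=
  ([21,20,19,17,16,15,13,12,11,9,9,8,7,6,6,5,4,3,3,2,1], [[19,18,16,15,14,12,11,10,8,8,7,6,5,5,4,3,2,2,1]], true,
    [[(1,20,0),(2,17,3),(1,15,0),(1,12,0),(0,11,1),(3,9,0),(1,7,0),(0,6,2),(1,4,0),(3,3,0),(1,1,9)]],
    [])

def r11_31 : Rec :=
  ([21,20,19,17,16,15,13,12,11,10,9,8,7,6,6,5,4,3,3,2,1], [[19,18,16,15,14,12,11,10,9,8,7,6,5,5,4,3,2,2,1]], true,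
    [[(1,20,0),(2,17,3),(1,15,0),(1,12,0),(1,10,0),(1,8,0),(0,7,1),(3,6,0),(1,4,0),(3,3,0),(1,1,6)]],
    [])

def r11_32 : Rec :=
  ([22,20,19,17,16,15,13,12,11,9,9,8,7,6,6,5,4,3,3,2,1,1], [[19,18,16,15,14,12,11,10,8,8,7,6,5,5,4,3,2,2,1]], true,
    [[(2,20,1),(2,17,3),(1,15,0),(1,12,0),(0,11,1),(3,9,0),(1,7,0),(0,6,2),(1,4,9),(3,3,0),(0,2,1),(3,1,0)],[(0,22,1),(1,19,0),(1,16,0),(2,13,1),(1,11,0),(0,9,2),(1,7,0),(0,6,2),(1,4,0),(0,3,2),(0,2,1),(3,1,0)]],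
    [])

def data11 : List Rec :=
  [r11_0, r11_1, r11_2, r11_3, r11_4, r11_5, r11_6, r11_7, r11_8, r11_9, r11_10, r11_11, r11_12, r11_13, r11_14, r11_15, r11_16, r11_17, r11_18, r11_19, r11_20, r11_21, r11_22, r11_23, r11_24, r11_25, r11_26, r11_27, r11_28, r11_29, r11_30, r11_31, r11_32]

theorem data11_ok : data11.all recF = true := by decide +kernel

end Crest.Agent.R195
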