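import Crest.Agent.R195.Fast

/-! # Row 195: certificates, n = 62 … 76 (generated) -/

namespace Crest.Agent.R195

def r7_0 : Rec :=
  ([12,10,8,7,6,6,4,3,2,2,1,1], [[1],[9,7,6,5,5,3,2,1,1]], true,
    [[(2,10,1),(1,7,0),(3,6,0),(1,3,6),(0,2,2),(3,1,0)],[(2,10,1),(1,7,0),(0,6,2),(1,3,0),(0,2,2),(3,1,0)]],
    [0x1020100020200000301020600000701000a0112000406010101010101020504020100020200000301020600000701000a0112000601010101010102020100020200000301020600000701000a0112000601010101010102])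

def r7_1 : Rec :=
  ([11,10,9,8,6,5,4,4,3,2,1], [[9,8,7,5,4,3,3,2,1]], true,
    [[(1,10,0),(1,8,0),(1,5,0),(0,4,2),(1,2,0),(0,1,1)]],
    [])

def r7_2 : Rec :=
  ([11,10,9,8,6,6,4,4,3,2,1], [[9,8,7,5,5,3,3,2,1]], true,
    [[(1,10,0),(1,8,0),(3,6,0),(0,4,2),(0,3,1),(1,1,6)]],
    [])

def r7_3 : Rec :=
  ([11,10,9,8,7,5,5,4,3,2,1], [[9,8,7,6,4,4,3,2,1]], true,
    [[(1,10,0),(1,8,0),(0,7,1),(3,5,0),(1,3,0),(1,1,5)]],
    [])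

def r7_4 : Rec :=
  ([11,10,9,8,7,6,5,4,3,2,1], [[9,8,7,6,5,4,3,2,1]], true,
    [[(1,10,0),(1,8,0),(1,6,0),(1,4,0),(1,2,0),(0,1,1)]],
    [])

def r7_5 : Rec :=
  ([12,10,9,8,7,5,5,4,3,2,1,1], [[9,8,7,6,4,4,3,2,1]], true,
    [[(2,10,5),(1,8,0),(0,7,1),(3,5,0),(1,3,0),(0,2,1),(0,1,2)],[(2,10,1),(1,8,0),(0,7,1),(0,5,2),(1,3,0),(0,2,1),(3,1,0)]],
    [])

def r7_6 : Rec :=
  ([12,10,9,8,7,6,5,4,3,2,1,1], [[9,8,7,6,5,4,3,2,1]], true,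
    [[(2,10,1),(1,8,0),(1,6,0),(1,4,0),(1,2,0),(3,1,0)]],
    [])

def r7_7 : Rec :=
  ([12,11,9,8,7,5,5,4,3,2,2,1], [[10,8,7,6,4,4,3,2,1,1]], true,
    [[(1,11,0),(1,8,0),(0,7,1),(3,5,0),(1,3,5),(0,2,2),(0,1,1)]],
    [])

def r7_8 : Rec :=
  ([12,11,9,8,7,6,5,4,3,2,2,1], [[10,8,7,6,5,4,3,2,1,1]], true,
    [[(1,11,0),(1,8,0),(1,6,0),(1,4,0),(0,3,1),(0,2,2),(0,1,1)]],
    [])

def r7_9 : Rec :=
  ([12,11,10,8,7,5,5,4,3,3,2,1], [[10,9,7,6,4,4,3,2,2,1]], true,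
    [[(1,11,0),(2,8,3),(0,7,1),(3,5,0),(0,4,1),(3,3,0),(1,1,5)]],
    [])

def r7_10 : Rec :=
  ([13,11,9,8,7,6,5,4,3,2,2,1,1], [[10,8,7,6,5,4,3,2,1,1]], true,
    [[(2,11,1),(1,8,0),(1,6,0),(1,4,0),(0,3,1),(0,2,2),(3,1,0)]],
    [])

def r7_11 : Rec :=
  ([12,11,10,9,7,5,5,4,4,3,2,1], [[10,9,8,6,4,4,3,3,2,1]], true,
    [[(1,11,0),(1,9,0),(0,7,1),(3,5,0),(0,4,2),(0,3,1),(1,1,5)]],
    [])

def r7_12 : Rec :=
  ([13,11,10,8,7,6,5,4,3,3,2,1,1], [[10,9,7,6,5,4,3,2,2,1]], true,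
    [[(2,11,1),(2,8,3),(1,6,0),(1,4,0),(3,3,0),(0,2,1),(3,1,0)]],
    [])

def r7_13 : Rec :=
  ([13,11,10,9,7,5,5,4,4,3,2,1,1], [[1],[10,9,8,6,4,4,3,3,2,1]], true,
    [[(2,11,1),(1,9,0),(0,7,1),(3,5,0),(0,4,2),(1,2,5),(3,1,0)],[(2,11,1),(1,9,0),(0,7,1),(0,5,2),(0,4,2),(1,2,0),(3,1,0)]],
    [0x10101010101020504020100000201020400020500010700000901000b0115000406010101010101020504020100000201020400020500010700000901000b0115000406010101010101020504020100000201020400020500010700000901000b0115000601010101010102020100000201020400020500010700000901000b0115000601010101010102020100000201020400020500010700000901000b0115000601010101010102020100000201020400020500010700000901000b0115000601010101010102,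
     0x1020100000201020400020500010700000901000b011500040601])

def r7_14 : Rec :=
  ([13,12,10,8,7,6,5,4,3,3,2,2,1], [[11,9,7,6,5,4,3,2,2,1,1]], true,
    [[(1,12,0),(2,8,3),(1,6,0),(1,4,0),(3,3,0),(0,2,2),(0,1,1)]],
    [])

def data7 : List Rec :=
  [r7_0, r7_1, r7_2, r7_3, r7_4, r7_5, r7_6, r7_7, r7_8, r7_9, r7_10, r7_11, r7_12, r7_13, r7_14]

theorem data7_ok : data7.all recF = true := by decide +kernel

end Crest.Agent.R195
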